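import Vale.Agent.H2.CT.BoxKappa

/-!
P328: the kappa-route, slice-free form.

The slice-free kappa-step inequality (all penalties, depths and level counts are those of the
class itself): for `f` of zero sum there is a column `a` with

  `P_F(f) + κ |E_a f - E f|² ≤ K_a(f) + P_{-a}(f - E_a f)`

(sums over ordered pairs, so every term appears twice).  By the pooling inequality of the
penalties of the pairs not containing `a` it implies the kappa-step inequality between the
slack of the class and the slacks of its slices, hence the surplus inequality, the Poincare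
inequality and the mixing time bound.
-/

namespace Vale.Agent.H2.CT

open Finset Vale.Agent.H90 Vale.Agent.H88.CT Vale.Agent.H91.CT Vale.Agent.H14.CT

/-- The slice-free kappa-step inequality for the class `Box (n + 1) s ρ`, the function `f` and
the column `a`. -/
def FreeStep {n : ℕ} {s : Fin (n + 1) → ℕ} {ρ : ℕ} (t : ℝ) (a : Fin (n + 1))
    (f : Box (n + 1) s ρ → ℝ) : Prop :=
  ∑ x : Fin (n + 1), ∑ y : Fin (n + 1), (if x ≠ y then penB x y f else 0)
      + 2 * t * betweenB a f
    ≤ ∑ x : Fin (n + 1), ∑ y : Fin (n + 1),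
        (if x ≠ y ∧ (x = a ∨ y = a) then QB x y f else 0)
      + ∑ x : Fin (n + 1), ∑ y : Fin (n + 1),
        (if x ≠ y ∧ x ≠ a ∧ y ≠ a then
          penB x y (fun z => f z - avgRel (SliceRel a) f z) else 0)

/-- The slice-free kappa-step hypothesis with a base case: the slack of every class with three
columns is at least `2 κ 3` times the squared deviation from the mean, and in every class with
`n + 1 ≥ 4` columns, for every `f` of zero sum, there is a column `a` for which the slice-free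
kappa-step inequality holds with the constant `κ (n + 1)`. -/
def KappaFreeHyp (κ : ℕ → ℝ) : Prop :=
  (∀ (s : Fin 3 → ℕ) (ρ : ℕ) (f : Box 3 s ρ → ℝ), 2 * κ 3 * devB f ≤ slackB f) ∧
  ∀ (n : ℕ), 3 ≤ n → ∀ (s : Fin (n + 1) → ℕ) (ρ : ℕ) (f : Box (n + 1) s ρ → ℝ),
    ∑ z, f z = 0 → ∃ a : Fin (n + 1), FreeStep (κ (n + 1)) a f

/-- The slice-free kappa-step hypothesis without a base case: in every class with at least
three columns, for every `f` of zero sum, there is a column `a` for which the slice-free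
kappa-step inequality holds with the constant `κ (n + 1)`. -/
def KappaFreeAll (κ : ℕ → ℝ) : Prop :=
  ∀ (n : ℕ), 2 ≤ n → ∀ (s : Fin (n + 1) → ℕ) (ρ : ℕ) (f : Box (n + 1) s ρ → ℝ),
    ∑ z, f z = 0 → ∃ a : Fin (n + 1), FreeStep (κ (n + 1)) a f

theorem betweenB_centreB {n : ℕ} {s : Fin n → ℕ} {ρ : ℕ} (a : Fin n) (f : Box n s ρ → ℝ) :
    betweenB a (centreB f) = betweenB a f := by
  unfold betweenB
  refine Finset.sum_congr rfl (fun z _ => ?_)
  rw [sum_centreB f, zero_div, sub_zero]
  unfold centreB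
  rw [avgRel_sub_const _ (sliceRel_eqv2 a)]

/-- The slice-free kappa-step inequality for the centred function gives the kappa-step
inequality between the slack of the class and the slacks of its slices. -/
theorem step_of_freeStep {n : ℕ} {s : Fin (n + 1) → ℕ} {ρ : ℕ} (t : ℝ) (a : Fin (n + 1))
    (f : Box (n + 1) s ρ → ℝ) (key : FreeStep t a (centreB f)) :
    ∑ j ∈ Finset.range (min (s a) ρ + 1), slackB (sliceFun a j f) + 2 * t * betweenB a f
      ≤ slackB f := by
  unfold FreeStep at key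
  rw [centreB_sub_avg a f, sum_ne_succAbove a, betweenB_centreB] at key
  simp only [QB_centreB] at key
  have hslack : slackB f
      = ∑ x : Fin (n + 1), ∑ y : Fin (n + 1), (if x ≠ y then QB x y f else 0)
        - ∑ x : Fin (n + 1), ∑ y : Fin (n + 1), (if x ≠ y then penB x y (centreB f) else 0) := by
    unfold slackB
    rw [← Finset.sum_sub_distrib]
    refine Finset.sum_congr rfl (fun x _ => ?_)
    rw [← Finset.sum_sub_distrib]
    refine Finset.sum_congr rfl (fun y _ => ?_)
    by_cases hxy : x ≠ y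
    · rw [if_pos hxy, if_pos hxy, if_pos hxy]
    · rw [if_neg hxy, if_neg hxy, if_neg hxy, sub_zero]
  rw [sum_ne_split a (fun x y => QB x y f)] at hslack
  have hsl : ∀ j ∈ Finset.range (min (s a) ρ + 1), slackB (sliceFun a j f)
      = sumNe (fun b c : Fin n => QB b c (sliceFun a j f))
        - sumNe (fun b c : Fin n => penB b c (centreB (sliceFun a j f))) := by
    intro j _
    rw [← sumNe_sub]
    rfl
  rw [Finset.sum_congr rfl hsl, Finset.sum_sub_distrib, sumNe_sum, sumNe_sum]
  have hQ : sumNe (fun b c : Fin n =>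
      ∑ j ∈ Finset.range (min (s a) ρ + 1), QB b c (sliceFun a j f))
      = sumNe (fun b c : Fin n => QB (a.succAbove b) (a.succAbove c) f) := by
    unfold sumNe
    refine Finset.sum_congr rfl (fun b _ => Finset.sum_congr rfl (fun c _ => ?_))
    beta_reduce
    rw [QB_slices a b c f]
  have hP : sumNe (fun b c : Fin n =>
      penB (a.succAbove b) (a.succAbove c) (fun z => f z - avgRel (SliceRel a) f z))
      ≤ sumNe (fun b c : Fin n =>
        ∑ j ∈ Finset.range (min (s a) ρ + 1), penB b c (centreB (sliceFun a j f))) := by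
    refine sumNe_le _ _ (fun b c hbc => ?_)
    refine le_trans (penB_pool a b c hbc _) (le_of_eq ?_)
    refine Finset.sum_congr rfl (fun j hj => ?_)
    rw [Finset.mem_range] at hj
    rw [sliceFun_sub_avg a j (by omega) (by omega) f]
  rw [hQ, hslack]
  linarith

theorem kappaStepAll_of_free (κ : ℕ → ℝ) (h : KappaFreeAll κ) : KappaStepAll κ := by
  intro n hn s ρ f
  obtain ⟨a, ha⟩ := h n hn s ρ (centreB f) (sum_centreB f)
  exact ⟨a, step_of_freeStep (κ (n + 1)) a f ha⟩

theorem kappaStepHyp_of_free (κ : ℕ → ℝ) (h : KappaFreeHyp κ) : KappaStepHyp κ := by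
  refine ⟨h.1, fun n hn s ρ f => ?_⟩
  obtain ⟨a, ha⟩ := h.2 n hn s ρ (centreB f) (sum_centreB f)
  exact ⟨a, step_of_freeStep (κ (n + 1)) a f ha⟩

/-- Conditional main theorem (kappa-route, slice-free form with a three-column base): for all
`m, n ≥ 2` and all margins the `2 x 2` heat-bath chain satisfies the Poincare inequality with
constant `δ / (m (m - 1) n (n - 1))` for every `0 < δ ≤ 2` with `δ ≤ 2 kmin κ m` and
`δ ≤ 2 kmin κ n`, and its lazy version mixes within the corresponding time. -/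
theorem main_kappaFree (κ : ℕ → ℝ) (h : KappaFreeHyp κ) {m n : ℕ} (hm : 2 ≤ m) (hn : 2 ≤ n)
    (r : Fin m → ℕ) (c : Fin n → ℕ) (δ : ℝ) (hδ0 : 0 < δ) (hδ2 : δ ≤ 2)
    (hδm : δ ≤ 2 * kmin κ m) (hδn : δ ≤ 2 * kmin κ n) :
    (∀ f : Omega r c → ℝ, ∑ X, f X = 0 →
      δ / ((m : ℝ) * (m - 1) * ((n : ℝ) * (n - 1))) * ∑ X, f X ^ 2
        ≤ (1 / 2 : ℝ) * ∑ X, ∑ Y, blockChain r c X Y * (f X - f Y) ^ 2) ∧
    ∀ (η : ℝ), 0 < η → ∀ t : ℕ,
      2 * ((m : ℝ) * (m - 1) * ((n : ℝ) * (n - 1))) / δ
        * ((m : ℝ) * ∑ j, Real.log ((c j : ℝ) + 1) + 2 * Real.log (1 / η)) ≤ t →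
      ∀ X : Omega r c,
        (1 / 2 : ℝ) * ∑ Y, |(((1 / 2 : ℝ) • (1 + blockChain r c)) ^ t) X Y
          - 1 / (Fintype.card (Omega r c) : ℝ)| ≤ η :=
  main_kappa κ (kappaStepHyp_of_free κ h) hm hn r c δ hδ0 hδ2 hδm hδn

/-- The same conclusion from the slice-free kappa-step inequality in all classes with at least
three columns. -/
theorem main_kappaFree_all (κ : ℕ → ℝ) (h : KappaFreeAll κ) {m n : ℕ} (hm : 2 ≤ m)
    (hn : 2 ≤ n) (r : Fin m → ℕ) (c : Fin n → ℕ) (δ : ℝ) (hδ0 : 0 < δ) (hδ2 : δ ≤ 2)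
    (hδm : δ ≤ 2 * kmin κ m) (hδn : δ ≤ 2 * kmin κ n) :
    (∀ f : Omega r c → ℝ, ∑ X, f X = 0 →
      δ / ((m : ℝ) * (m - 1) * ((n : ℝ) * (n - 1))) * ∑ X, f X ^ 2
        ≤ (1 / 2 : ℝ) * ∑ X, ∑ Y, blockChain r c X Y * (f X - f Y) ^ 2) ∧
    ∀ (η : ℝ), 0 < η → ∀ t : ℕ,
      2 * ((m : ℝ) * (m - 1) * ((n : ℝ) * (n - 1))) / δ
        * ((m : ℝ) * ∑ j, Real.log ((c j : ℝ) + 1) + 2 * Real.log (1 / η)) ≤ t →
      ∀ X : Omega r c,
        (1 / 2 : ℝ) * ∑ Y, |(((1 / 2 : ℝ) • (1 + blockChain r c)) ^ t) X Y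
          - 1 / (Fintype.card (Omega r c) : ℝ)| ≤ η :=
  main_kappa_all κ (kappaStepAll_of_free κ h) hm hn r c δ hδ0 hδ2 hδm hδn

end Vale.Agent.H2.CT
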