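import Vale.Agent.H14.CT.BoxMain

/-!
P328: the kappa-route.  Induction on the number of columns of box-slice classes.

`devB f` is the squared deviation of `f` from its mean, `betweenB a f` the squared deviation of
the slice averages `E_a f` from the mean.  If the slack of every class with three columns is at
least `2 κ 3` times the squared deviation, and if in every class with `n + 1 ≥ 4` columns and
for every `f` there is a column `a` such that the slack of the class exceeds the sum of the
slacks of the slices `{z a = j}` by at least `2 κ (n + 1)` times `betweenB a f`, then the slack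
of every class with `n` columns is at least `2 kmin κ n` times the squared deviation, where
`kmin κ n` is the minimum of `1` and the `κ k`, `3 ≤ k ≤ n`.  This gives the surplus inequality
with constants `θ = 1`, `κ n = 2 kmin κ n` on classes of two-rowed tables, hence the Poincare
inequality and the mixing time bound of the `2 x 2` heat-bath chain.
-/

namespace Vale.Agent.H2.CT

open Finset Vale.Agent.H90 Vale.Agent.H88.CT Vale.Agent.H91.CT Vale.Agent.H14.CT

section defs

variable {n : ℕ} {s : Fin n → ℕ} {ρ : ℕ}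

/-- The squared deviation of `f` from its mean. -/
noncomputable def devB (f : Box n s ρ → ℝ) : ℝ := ∑ z, (centreB f z) ^ 2

/-- The squared deviation of the slice averages `E_a f` (averages of `f` over the slices
`{z a = const}`) from the mean of `f`. -/
noncomputable def betweenB (a : Fin n) (f : Box n s ρ → ℝ) : ℝ :=
  ∑ z, (avgRel (SliceRel a) f z - (∑ w, f w) / (Fintype.card (Box n s ρ) : ℝ)) ^ 2

/-- The slice relation is an equivalence relation. -/
theorem sliceRel_eqv2 (a : Fin n) : Equivalence (SliceRel (s := s) (ρ := ρ) a) where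
  refl _ := rfl
  symm h := h.symm
  trans h1 h2 := h1.trans h2

theorem devB_nonneg (f : Box n s ρ → ℝ) : 0 ≤ devB f :=
  Finset.sum_nonneg (fun _ _ => sq_nonneg _)

theorem betweenB_nonneg (a : Fin n) (f : Box n s ρ → ℝ) : 0 ≤ betweenB a f :=
  Finset.sum_nonneg (fun _ _ => sq_nonneg _)

end defs

/-- The minimum of `1` and the numbers `κ k`, `3 ≤ k ≤ n`. -/
noncomputable def kmin (κ : ℕ → ℝ) : ℕ → ℝ
  | 0 => 1
  | (n + 1) => if 3 ≤ n + 1 then min (kmin κ n) (κ (n + 1)) else 1

theorem kmin_small (κ : ℕ → ℝ) (n : ℕ) (hn : n ≤ 2) : kmin κ n = 1 := by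
  cases n with
  | zero => rfl
  | succ k =>
    unfold kmin
    rw [if_neg (by omega)]

theorem kmin_succ (κ : ℕ → ℝ) (n : ℕ) (hn : 3 ≤ n + 1) :
    kmin κ (n + 1) = min (kmin κ n) (κ (n + 1)) := by
  conv_lhs => unfold kmin
  rw [if_pos hn]

/-- A lower bound for `kmin`. -/
theorem le_kmin (κ : ℕ → ℝ) (c : ℝ) (hc1 : c ≤ 1) (n : ℕ)
    (hc : ∀ k, 3 ≤ k → k ≤ n → c ≤ κ k) : c ≤ kmin κ n := by
  induction n with
  | zero => rw [kmin_small κ 0 (by omega)]; exact hc1
  | succ n ih =>
    by_cases h3 : 3 ≤ n + 1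
    · rw [kmin_succ κ n h3]
      exact le_min (ih (fun k hk1 hk2 => hc k hk1 (by omega))) (hc (n + 1) h3 le_rfl)
    · rw [kmin_small κ (n + 1) (by omega)]
      exact hc1

/-- The kappa-step hypothesis: the slack of every class with three columns is at least
`2 κ 3` times the squared deviation from the mean, and in every class with `n + 1 ≥ 4` columns,
for every `f`, there is a column `a` such that the sum of the slacks of the slices `{z a = j}`
plus `2 κ (n + 1)` times the squared deviation of the slice averages from the mean is at most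
the slack of the class. -/
def KappaStepHyp (κ : ℕ → ℝ) : Prop :=
  (∀ (s : Fin 3 → ℕ) (ρ : ℕ) (f : Box 3 s ρ → ℝ), 2 * κ 3 * devB f ≤ slackB f) ∧
  ∀ (n : ℕ), 3 ≤ n → ∀ (s : Fin (n + 1) → ℕ) (ρ : ℕ) (f : Box (n + 1) s ρ → ℝ),
    ∃ a : Fin (n + 1),
      ∑ j ∈ Finset.range (min (s a) ρ + 1), slackB (sliceFun a j f)
        + 2 * κ (n + 1) * betweenB a f ≤ slackB f

/-- The kappa-step hypothesis without a base case: the step inequality in every class with at
least three columns. -/
def KappaStepAll (κ : ℕ → ℝ) : Prop :=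
  ∀ (n : ℕ), 2 ≤ n → ∀ (s : Fin (n + 1) → ℕ) (ρ : ℕ) (f : Box (n + 1) s ρ → ℝ),
    ∃ a : Fin (n + 1),
      ∑ j ∈ Finset.range (min (s a) ρ + 1), slackB (sliceFun a j f)
        + 2 * κ (n + 1) * betweenB a f ≤ slackB f

/-- The squared deviation from the mean is the sum of the squared deviations of the slices from
their means plus the squared deviation of the slice averages from the mean. -/
theorem devB_split {n : ℕ} {s : Fin (n + 1) → ℕ} {ρ : ℕ} (a : Fin (n + 1))
    (f : Box (n + 1) s ρ → ℝ) :
    devB f = ∑ j ∈ Finset.range (min (s a) ρ + 1), devB (sliceFun a j f) + betweenB a f := by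
  have hcross : ∑ z, (f z - avgRel (SliceRel a) f z)
      * (avgRel (SliceRel a) f z - (∑ w, f w) / (Fintype.card (Box (n + 1) s ρ) : ℝ)) = 0 := by
    have hinv : avgRel (SliceRel a)
        (fun z => avgRel (SliceRel a) f z - (∑ w, f w) / (Fintype.card (Box (n + 1) s ρ) : ℝ))
        = fun z => avgRel (SliceRel a) f z
          - (∑ w, f w) / (Fintype.card (Box (n + 1) s ρ) : ℝ) := by
      refine avgRel_eq_self (sliceRel_eqv2 a) _ (fun x y hxy => ?_)
      rw [avgRel_of_rel (sliceRel_eqv2 a) f hxy]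
    have h1 := avgRel_dot (sliceRel_eqv2 a) (f - avgRel (SliceRel a) f)
      (fun z => avgRel (SliceRel a) f z - (∑ w, f w) / (Fintype.card (Box (n + 1) s ρ) : ℝ))
    rw [hinv, avgRel_sub, avgRel_idem (sliceRel_eqv2 a), sub_self, dot_zero_left] at h1
    exact h1
  have hwithin : ∑ z, (f z - avgRel (SliceRel a) f z) ^ 2
      = ∑ j ∈ Finset.range (min (s a) ρ + 1), devB (sliceFun a j f) := by
    rw [sum_slices a (fun z => (f z - avgRel (SliceRel a) f z) ^ 2)]
    refine Finset.sum_congr rfl (fun j hj => ?_)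
    rw [Finset.mem_range] at hj
    have hj1 : j ≤ s a := by omega
    have hj2 : j ≤ ρ := by omega
    unfold devB
    refine Finset.sum_congr rfl (fun w _ => ?_)
    rw [← sliceFun_sub_avg a j hj1 hj2 f, sliceFun_eq a j hj1 hj2, sliceFun_eq a j hj1 hj2]
  rw [← hwithin]
  unfold devB betweenB centreB
  rw [← Finset.sum_add_distrib]
  have e : ∀ z : Box (n + 1) s ρ,
      (f z - (∑ w, f w) / (Fintype.card (Box (n + 1) s ρ) : ℝ)) ^ 2
      = ((f z - avgRel (SliceRel a) f z) ^ 2
        + (avgRel (SliceRel a) f z - (∑ w, f w) / (Fintype.card (Box (n + 1) s ρ) : ℝ)) ^ 2)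
        + 2 * ((f z - avgRel (SliceRel a) f z)
          * (avgRel (SliceRel a) f z
            - (∑ w, f w) / (Fintype.card (Box (n + 1) s ρ) : ℝ))) := by
    intro z
    ring
  rw [Finset.sum_congr rfl (fun z _ => e z), Finset.sum_add_distrib, ← Finset.mul_sum, hcross]
  ring

/-- A class with at most one column has at most one element. -/
theorem box_subsingleton {n : ℕ} (hn : n ≤ 1) (s : Fin n → ℕ) (ρ : ℕ) :
    Subsingleton (Box n s ρ) := by
  have hs : Subsingleton (Fin n) := Fin.subsingleton_iff_le_one.2 hn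
  constructor
  intro z w
  apply Subtype.ext
  funext k
  have e1 : ∑ k', z.1 k' = z.1 k := Fintype.sum_subsingleton _ k
  have e2 : ∑ k', w.1 k' = w.1 k := Fintype.sum_subsingleton _ k
  have hz := z.2.2
  have hw := w.2.2
  omega

theorem slack_small (κ : ℕ → ℝ) {n : ℕ} (hn : n ≤ 1) (s : Fin n → ℕ) (ρ : ℕ)
    (f : Box n s ρ → ℝ) :
    2 * kmin κ n * devB f ≤ slackB f := by
  have hs : Subsingleton (Fin n) := Fin.subsingleton_iff_le_one.2 hn
  have hb : Subsingleton (Box n s ρ) := box_subsingleton hn s ρ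
  have h1 : devB f = 0 := by
    unfold devB
    refine Finset.sum_eq_zero (fun z _ => ?_)
    have e : centreB f z = 0 := by
      rw [← Fintype.sum_subsingleton (centreB f) z]
      exact sum_centreB f
    rw [e]
    ring
  have h2 : slackB f = 0 := by
    unfold slackB
    exact Finset.sum_eq_zero (fun a _ => Finset.sum_eq_zero (fun b _ =>
      if_neg (not_not.mpr (Subsingleton.elim a b))))
  rw [h1, h2, mul_zero]

/-- On a class with two columns the block Dirichlet form is the squared deviation from the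
mean. -/
theorem QB_two {s : Fin 2 → ℕ} {ρ : ℕ} (a b : Fin 2) (hab : a ≠ b) (f : Box 2 s ρ → ℝ) :
    QB a b f = devB f := by
  have hrel : ∀ z w : Box 2 s ρ, LineRel a b z w ↔ (fun _ _ : Box 2 s ρ => True) z w := by
    intro z w
    constructor
    · intro _
      trivial
    · intro _ k hka hkb
      exfalso
      fin_cases a <;> fin_cases b <;> fin_cases k <;> simp_all
  unfold QB devB centreB
  refine Finset.sum_congr rfl (fun z _ => ?_)
  rw [avgRel_congr _ _ hrel f, Vale.Agent.H91.CT.TransferAux.avgRel_true]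

theorem slack_two_dev {s : Fin 2 → ℕ} {ρ : ℕ} (f : Box 2 s ρ → ℝ) :
    slackB f = 2 * devB f := by
  rw [slack_two, QB_two 0 1 (by decide) f, QB_two 1 0 (by decide) f]
  ring

/-- One induction step. -/
theorem step_aux {n : ℕ} (c κ' : ℝ)
    (ih : ∀ (s : Fin n → ℕ) (ρ : ℕ) (f : Box n s ρ → ℝ), 2 * c * devB f ≤ slackB f)
    {s : Fin (n + 1) → ℕ} {ρ : ℕ} (f : Box (n + 1) s ρ → ℝ) (a : Fin (n + 1))
    (hstep : ∑ j ∈ Finset.range (min (s a) ρ + 1), slackB (sliceFun a j f)
        + 2 * κ' * betweenB a f ≤ slackB f) :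
    2 * min c κ' * devB f ≤ slackB f := by
  rw [devB_split a f]
  have h1 : ∑ j ∈ Finset.range (min (s a) ρ + 1), 2 * c * devB (sliceFun a j f)
      ≤ ∑ j ∈ Finset.range (min (s a) ρ + 1), slackB (sliceFun a j f) :=
    Finset.sum_le_sum (fun j _ => ih _ _ _)
  rw [← Finset.mul_sum] at h1
  have hD : 0 ≤ ∑ j ∈ Finset.range (min (s a) ρ + 1), devB (sliceFun a j f) :=
    Finset.sum_nonneg (fun j _ => devB_nonneg _)
  have hB := betweenB_nonneg a f
  have hc : min c κ' ≤ c := min_le_left _ _
  have hk : min c κ' ≤ κ' := min_le_right _ _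
  nlinarith [mul_le_mul_of_nonneg_right hc hD, mul_le_mul_of_nonneg_right hk hB]

/-- Under the kappa-step hypothesis the slack of every class with `n` columns is at least
`2 kmin κ n` times the squared deviation from the mean. -/
theorem slack_kappa (κ : ℕ → ℝ) (h : KappaStepHyp κ) :
    ∀ (n : ℕ) (s : Fin n → ℕ) (ρ : ℕ) (f : Box n s ρ → ℝ),
      2 * kmin κ n * devB f ≤ slackB f := by
  intro n
  induction n with
  | zero =>
    intro s ρ f
    exact slack_small κ (by omega) s ρ f
  | succ n ih =>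
    intro s ρ f
    rcases Nat.lt_or_ge (n + 1) 2 with h1 | h2
    · exact slack_small κ (by omega) s ρ f
    · rcases Nat.eq_or_lt_of_le h2 with e2 | h3
      · obtain rfl : n = 1 := by omega
        rw [kmin_small κ 2 le_rfl, slack_two_dev]
        linarith
      · rcases Nat.eq_or_lt_of_le (Nat.succ_le_of_lt h3) with e3 | h4
        · obtain rfl : n = 2 := by omega
          have hb := h.1 s ρ f
          have hk : kmin κ 3 ≤ κ 3 := by
            rw [kmin_succ κ 2 (by omega)]
            exact min_le_right _ _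
          have hd := devB_nonneg f
          nlinarith [mul_le_mul_of_nonneg_right hk hd]
        · obtain ⟨a, ha⟩ := h.2 n (by omega) s ρ f
          rw [kmin_succ κ n (by omega)]
          exact step_aux (kmin κ n) (κ (n + 1)) ih f a ha

/-- The same from the step inequality in all classes with at least three columns. -/
theorem slack_kappa_all (κ : ℕ → ℝ) (h : KappaStepAll κ) :
    ∀ (n : ℕ) (s : Fin n → ℕ) (ρ : ℕ) (f : Box n s ρ → ℝ),
      2 * kmin κ n * devB f ≤ slackB f := by
  intro n
  induction n with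
  | zero =>
    intro s ρ f
    exact slack_small κ (by omega) s ρ f
  | succ n ih =>
    intro s ρ f
    rcases Nat.lt_or_ge (n + 1) 2 with h1 | h2
    · exact slack_small κ (by omega) s ρ f
    · rcases Nat.eq_or_lt_of_le h2 with e2 | h3
      · obtain rfl : n = 1 := by omega
        rw [kmin_small κ 2 le_rfl, slack_two_dev]
        linarith
      · obtain ⟨a, ha⟩ := h n (by omega) s ρ f
        rw [kmin_succ κ n (by omega)]
        exact step_aux (kmin κ n) (κ (n + 1)) ih f a ha

/-- A surplus inequality on all box-slice classes gives the surplus inequality `SurHypG` on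
classes of two-rowed tables with the same constants. -/
theorem surHypG_of_box (θ κ : ℕ → ℝ)
    (hbox : ∀ (n : ℕ) (s : Fin n → ℕ) (ρ : ℕ) (f : Box n s ρ → ℝ), ∑ z, f z = 0 →
      ∑ a : Fin n, ∑ b : Fin n, (if a ≠ b then penB a b f else 0)
        ≤ θ n * ∑ a : Fin n, ∑ b : Fin n, (if a ≠ b then QB a b f else 0)
          - κ n * ∑ z, f z ^ 2) :
    SurHypG θ κ := by
  intro n r c f hf
  by_cases hne : Nonempty (Omega r c)
  · obtain ⟨X0⟩ := hne
    have hr : ∑ k, c k = r 0 + r 1 := two_total X0
    set e := boxEquiv hr with he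
    set g : Box n c (r 0) → ℝ := fun z => f (e.symm z) with hg
    have hg0 : ∑ z, g z = 0 := by
      rw [← hf]
      exact Equiv.sum_comp e.symm f
    have key := hbox n c (r 0) g hg0
    have hpen : ∀ a b : Fin n, penB a b g
        = ∑ d ∈ Finset.Icc 1 (min (c a) (c b)),
          (∑ X ∈ univ.filter (fun X : Omega r c => d ≤ depth2 a b X), f X) ^ 2 /
            ((d : ℝ) * (d + 1) *
              ((univ.filter (fun X : Omega r c => min (X.1 0 a) (X.1 1 b) = d)).card : ℝ)) := by
      intro a b
      unfold penB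
      refine Finset.sum_congr rfl (fun d _ => ?_)
      have h1 : ∑ z ∈ univ.filter (fun z : Box n c (r 0) => d ≤ depthB a b z), g z
          = ∑ X ∈ univ.filter (fun X : Omega r c => d ≤ depth2 a b X), f X := by
        symm
        refine Finset.sum_equiv e ?_ ?_
        · intro X
          simp only [Finset.mem_filter, Finset.mem_univ, true_and]
          rw [depth2_eq_depthB hr a b X]
        · intro X _
          rw [hg]
          simp only [Equiv.symm_apply_apply]
      have h2 : (univ.filter (fun z : Box n c (r 0) => levelB a b z = d)).card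
          = (univ.filter (fun X : Omega r c => min (X.1 0 a) (X.1 1 b) = d)).card := by
        symm
        refine Finset.card_equiv e ?_
        intro X
        simp only [Finset.mem_filter, Finset.mem_univ, true_and]
        rw [level_eq_levelB hr a b X]
      rw [h1, h2]
    have hQ : ∀ a b : Fin n, QB a b g
        = ∑ X, (f X - avgRel (BlockRel 0 1 a b) f X) ^ 2 := by
      intro a b
      unfold QB
      exact (sum_sq_transport e (BlockRel 0 1 a b) (LineRel a b)
        (fun X Y => blockRel_iff_lineRel hr a b X Y) f).symm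
    have hsq : ∑ z, g z ^ 2 = ∑ X, f X ^ 2 := Equiv.sum_comp e.symm (fun X => f X ^ 2)
    simp only [hpen, hQ, hsq] at key
    exact key
  · have hemp : IsEmpty (Omega r c) := not_nonempty_iff.1 hne
    have hz : ∀ G : Omega r c → ℝ, ∀ S : Finset (Omega r c), ∑ X ∈ S, G X = 0 := by
      intro G S
      exact Finset.sum_eq_zero (fun X _ => (hemp.false X).elim)
    have e1 : ∑ a : Fin n, ∑ b : Fin n, (if a ≠ b then
        ∑ d ∈ Finset.Icc 1 (min (c a) (c b)),
          (∑ X ∈ univ.filter (fun X : Omega r c => d ≤ depth2 a b X), f X) ^ 2 /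
            ((d : ℝ) * (d + 1) *
              ((univ.filter (fun X : Omega r c => min (X.1 0 a) (X.1 1 b) = d)).card : ℝ))
        else 0) = 0 := by
      refine Finset.sum_eq_zero (fun a _ => Finset.sum_eq_zero (fun b _ => ?_))
      by_cases hab : a ≠ b
      · rw [if_pos hab]
        refine Finset.sum_eq_zero (fun d _ => ?_)
        rw [hz]
        simp
      · rw [if_neg hab]
    have e2 : ∑ a : Fin n, ∑ b : Fin n, (if a ≠ b then
        ∑ X, (f X - avgRel (BlockRel 0 1 a b) f X) ^ 2 else 0) = 0 := by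
      refine Finset.sum_eq_zero (fun a _ => Finset.sum_eq_zero (fun b _ => ?_))
      by_cases hab : a ≠ b
      · rw [if_pos hab, hz]
      · rw [if_neg hab]
    rw [e1, e2, hz (fun X => f X ^ 2) univ, mul_zero, mul_zero, sub_zero]

/-- A lower bound `2 k n * devB f ≤ slackB f` for the slack on all box-slice classes gives the
surplus inequality with constants `θ = 1` and `κ n = 2 k n`. -/
theorem surHypG_of_slack (k : ℕ → ℝ)
    (h : ∀ (n : ℕ) (s : Fin n → ℕ) (ρ : ℕ) (f : Box n s ρ → ℝ),
      2 * k n * devB f ≤ slackB f) :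
    SurHypG (fun _ => 1) (fun n => 2 * k n) := by
  refine surHypG_of_box _ _ (fun n s ρ f hf => ?_)
  have key := h n s ρ f
  have hslack : slackB f = ∑ a : Fin n, ∑ b : Fin n, (if a ≠ b then QB a b f else 0)
      - ∑ a : Fin n, ∑ b : Fin n, (if a ≠ b then penB a b f else 0) := by
    unfold slackB
    rw [centreB_of_sum_zero f hf, ← Finset.sum_sub_distrib]
    refine Finset.sum_congr rfl (fun a _ => ?_)
    rw [← Finset.sum_sub_distrib]
    refine Finset.sum_congr rfl (fun b _ => ?_)
    by_cases hab : a ≠ b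
    · rw [if_pos hab, if_pos hab, if_pos hab]
    · rw [if_neg hab, if_neg hab, if_neg hab, sub_zero]
  have hdev : devB f = ∑ z, f z ^ 2 := by
    unfold devB
    rw [centreB_of_sum_zero f hf]
  rw [hslack, hdev] at key
  linarith

/-- The surplus inequality with constants `θ = 1`, `κ n = 2 kmin κ n` from the kappa-step
hypothesis. -/
theorem surHypG_of_kappa (κ : ℕ → ℝ) (h : KappaStepHyp κ) :
    SurHypG (fun _ => 1) (fun n => 2 * kmin κ n) :=
  surHypG_of_slack (kmin κ) (slack_kappa κ h)

theorem surHypG_of_kappa_all (κ : ℕ → ℝ) (h : KappaStepAll κ) :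
    SurHypG (fun _ => 1) (fun n => 2 * kmin κ n) :=
  surHypG_of_slack (kmin κ) (slack_kappa_all κ h)

/-- Conditional main theorem (kappa-route): under the kappa-step hypothesis, for all
`m, n ≥ 2` and all margins the `2 x 2` heat-bath chain satisfies the Poincare inequality with
constant `δ / (m (m - 1) n (n - 1))` for every `0 < δ ≤ 2` with `δ ≤ 2 kmin κ m` and
`δ ≤ 2 kmin κ n`, and its lazy version mixes within the corresponding time. -/
theorem main_kappa (κ : ℕ → ℝ) (h : KappaStepHyp κ) {m n : ℕ} (hm : 2 ≤ m) (hn : 2 ≤ n)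
    (r : Fin m → ℕ) (c : Fin n → ℕ) (δ : ℝ) (hδ0 : 0 < δ) (hδ2 : δ ≤ 2)
    (hδm : δ ≤ 2 * kmin κ m) (hδn : δ ≤ 2 * kmin κ n) :
    (∀ f : Omega r c → ℝ, ∑ X, f X = 0 →
      δ / ((m : ℝ) * (m - 1) * ((n : ℝ) * (n - 1))) * ∑ X, f X ^ 2
        ≤ (1 / 2 : ℝ) * ∑ X, ∑ Y, blockChain r c X Y * (f X - f Y) ^ 2) ∧
    ∀ (η : ℝ), 0 < η → ∀ t : ℕ,
      2 * ((m : ℝ) * (m - 1) * ((n : ℝ) * (n - 1))) / δ
        * ((m : ℝ) * ∑ j, Real.log ((c j : ℝ) + 1) + 2 * Real.log (1 / η)) ≤ t →
      ∀ X : Omega r c,
        (1 / 2 : ℝ) * ∑ Y, |(((1 / 2 : ℝ) • (1 + blockChain r c)) ^ t) X Y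
          - 1 / (Fintype.card (Omega r c) : ℝ)| ≤ η := by
  refine main_surG (fun _ => 1) (fun k => 2 * kmin κ k) (surHypG_of_kappa κ h)
    (fun _ => le_refl _) hm hn r c δ hδ0 hδ2 ?_ ?_
  · have e : 2 * kmin κ m + 2 * (1 - (1 : ℝ)) = 2 * kmin κ m := by ring
    rw [e]
    exact hδm
  · have e : 2 * kmin κ n + 2 * (1 - (1 : ℝ)) = 2 * kmin κ n := by ring
    rw [e]
    exact hδn

/-- The same conclusion from the step inequality in all classes with at least three columns. -/
theorem main_kappa_all (κ : ℕ → ℝ) (h : KappaStepAll κ) {m n : ℕ} (hm : 2 ≤ m) (hn : 2 ≤ n)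
    (r : Fin m → ℕ) (c : Fin n → ℕ) (δ : ℝ) (hδ0 : 0 < δ) (hδ2 : δ ≤ 2)
    (hδm : δ ≤ 2 * kmin κ m) (hδn : δ ≤ 2 * kmin κ n) :
    (∀ f : Omega r c → ℝ, ∑ X, f X = 0 →
      δ / ((m : ℝ) * (m - 1) * ((n : ℝ) * (n - 1))) * ∑ X, f X ^ 2
        ≤ (1 / 2 : ℝ) * ∑ X, ∑ Y, blockChain r c X Y * (f X - f Y) ^ 2) ∧
    ∀ (η : ℝ), 0 < η → ∀ t : ℕ,
      2 * ((m : ℝ) * (m - 1) * ((n : ℝ) * (n - 1))) / δ
        * ((m : ℝ) * ∑ j, Real.log ((c j : ℝ) + 1) + 2 * Real.log (1 / η)) ≤ t →
      ∀ X : Omega r c,
        (1 / 2 : ℝ) * ∑ Y, |(((1 / 2 : ℝ) • (1 + blockChain r c)) ^ t) X Y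
          - 1 / (Fintype.card (Omega r c) : ℝ)| ≤ η := by
  refine main_surG (fun _ => 1) (fun k => 2 * kmin κ k) (surHypG_of_kappa_all κ h)
    (fun _ => le_refl _) hm hn r c δ hδ0 hδ2 ?_ ?_
  · have e : 2 * kmin κ m + 2 * (1 - (1 : ℝ)) = 2 * kmin κ m := by ring
    rw [e]
    exact hδm
  · have e : 2 * kmin κ n + 2 * (1 - (1 : ℝ)) = 2 * kmin κ n := by ring
    rw [e]
    exact hδn

end Vale.Agent.H2.CT
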