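import Vale.Agent.H2.CT.BoxKappaFree
import Vale.Agent.H91.CT.BoxLift

/-!
P328: the kappa-step from a star inequality and a bound of the slice defect.

For a class `Box (n + 1) s ρ`, a column `a` and a function `f`:

* the star inequality with gain `t₁` at `a`:
  `∑_{b ≠ a} penB a b (f - mean) + t₁ |E_a f - E f|² ≤ ∑_{b ≠ a} QB a b f`;
* the slice defect bound with constant `t₂`: the sum over the ordered pairs `b ≠ c` of columns
  different from `a` of `penB (f - mean)` of the class minus the sum over the slices
  `{z a = j}` of the penalties of the centred restrictions is at most `2 t₂ |E_a f - E f|²`;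

together give the kappa-step inequality with the constant `t₁ - t₂`: the sum of the slacks of
the slices plus `2 (t₁ - t₂) |E_a f - E f|²` is at most the slack of the class.
-/

namespace Vale.Agent.H2.CT

open Finset Vale.Agent.H90 Vale.Agent.H88.CT Vale.Agent.H91.CT Vale.Agent.H14.CT

section comm

variable {n : ℕ} {s : Fin n → ℕ} {ρ : ℕ}

theorem lineRel_comm2 (a b : Fin n) (z w : Box n s ρ) : LineRel a b z w ↔ LineRel b a z w :=
  ⟨fun h k hb ha => h k ha hb, fun h k ha hb => h k hb ha⟩

theorem depthB_comm2 (a b : Fin n) (z : Box n s ρ) : depthB a b z = depthB b a z := by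
  unfold depthB
  rw [add_comm (z.1 a), add_comm (s a - z.1 a), min_comm (s a)]

/-- The block Dirichlet form does not depend on the order of the two columns. -/
theorem QB_comm2 (a b : Fin n) (f : Box n s ρ → ℝ) : QB a b f = QB b a f := by
  unfold QB
  rw [avgRel_congr (LineRel a b) (LineRel b a) (lineRel_comm2 a b) f]

/-- The closed-form penalty does not depend on the order of the two columns. -/
theorem penB_comm2 (a b : Fin n) (hab : a ≠ b) (f : Box n s ρ → ℝ) :
    penB a b f = penB b a f := by
  have hCL : ∀ (z : Box n s ρ) (G : ℕ → ℝ),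
      ∑ z' ∈ univ.filter (fun z' => LineRel a b z z'), G (levelB b a z')
        = ∑ t ∈ range (depthB a b z + 1), G t := by
    intro z G
    have h := box_class_level b a hab.symm z G
    rw [depthB_comm2 a b z, ← h]
    refine Finset.sum_congr (Finset.filter_congr (fun z' _ => lineRel_comm2 a b z z')) ?_
    intro z' _
    rfl
  unfold penB
  rw [min_comm (s a) (s b)]
  refine Finset.sum_congr rfl (fun d _ => ?_)
  rw [← card_level_eq a b hab (levelB b a) hCL d]
  have hfil : univ.filter (fun z : Box n s ρ => d ≤ depthB a b z)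
      = univ.filter (fun z : Box n s ρ => d ≤ depthB b a z) :=
    Finset.filter_congr (fun z _ => by rw [depthB_comm2 a b z])
  rw [hfil]

/-- The sum over the ordered pairs of distinct indices one of which is `a`. -/
theorem sum_ne_star (a : Fin n) (G : Fin n → Fin n → ℝ) :
    ∑ x : Fin n, ∑ y : Fin n, (if x ≠ y ∧ (x = a ∨ y = a) then G x y else 0)
      = ∑ b : Fin n, (if b ≠ a then G a b + G b a else 0) := by
  have h1 : ∀ x y : Fin n, (if x ≠ y ∧ (x = a ∨ y = a) then G x y else 0)
      = (if x = a then (if y ≠ a then G a y else 0) else 0)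
        + (if y = a then (if x ≠ a then G x a else 0) else 0) := by
    intro x y
    by_cases hx : x = a
    · by_cases hy : y = a
      · rw [hx, hy]
        simp
      · rw [hx]
        have hay : a ≠ y := fun h => hy h.symm
        simp [hy, hay]
    · by_cases hy : y = a
      · rw [hy]
        simp [hx]
      · simp [hx, hy]
  simp only [h1, Finset.sum_add_distrib]
  have h2 : ∑ x : Fin n, ∑ y : Fin n, (if x = a then (if y ≠ a then G a y else 0) else 0)
      = ∑ y : Fin n, (if y ≠ a then G a y else 0) := by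
    rw [Finset.sum_eq_single a]
    · refine Finset.sum_congr rfl (fun y _ => ?_)
      rw [if_pos rfl]
    · intro x _ hx
      refine Finset.sum_eq_zero (fun y _ => ?_)
      rw [if_neg hx]
    · intro h
      exact absurd (Finset.mem_univ a) h
  have h3 : ∑ x : Fin n, ∑ y : Fin n, (if y = a then (if x ≠ a then G x a else 0) else 0)
      = ∑ x : Fin n, (if x ≠ a then G x a else 0) := by
    refine Finset.sum_congr rfl (fun x _ => ?_)
    rw [Finset.sum_eq_single a]
    · rw [if_pos rfl]
    · intro y _ hy
      rw [if_neg hy]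
    · intro h
      exact absurd (Finset.mem_univ a) h
  rw [h2, h3, ← Finset.sum_add_distrib]
  refine Finset.sum_congr rfl (fun b _ => ?_)
  by_cases hb : b ≠ a
  · rw [if_pos hb, if_pos hb, if_pos hb]
  · rw [if_neg hb, if_neg hb, if_neg hb, add_zero]

/-- `betweenB a f` is the squared norm of the slice averages of the centred function. -/
theorem betweenB_eq_centre (a : Fin n) (f : Box n s ρ → ℝ) :
    betweenB a f = ∑ z, avgRel (SliceRel a) (centreB f) z ^ 2 := by
  unfold betweenB
  refine Finset.sum_congr rfl (fun z _ => ?_)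
  unfold centreB
  rw [avgRel_sub_const _ (sliceRel_eqv2 a)]

end comm

/-- The kappa-step inequality from the star inequality with gain `t₁` at the column `a` and the
bound of the slice defect with constant `t₂`. -/
theorem step_of_star_defect {n : ℕ} {s : Fin (n + 1) → ℕ} {ρ : ℕ} (a : Fin (n + 1))
    (f : Box (n + 1) s ρ → ℝ) (t₁ t₂ : ℝ)
    (hstar : ∑ b : Fin (n + 1), (if b ≠ a then penB a b (centreB f) else 0) + t₁ * betweenB a f
      ≤ ∑ b : Fin (n + 1), (if b ≠ a then QB a b f else 0))
    (hS : sumNe (fun b c : Fin n => penB (a.succAbove b) (a.succAbove c) (centreB f)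
        - ∑ j ∈ Finset.range (min (s a) ρ + 1), penB b c (centreB (sliceFun a j f)))
      ≤ 2 * t₂ * betweenB a f) :
    ∑ j ∈ Finset.range (min (s a) ρ + 1), slackB (sliceFun a j f)
        + 2 * (t₁ - t₂) * betweenB a f ≤ slackB f := by
  have hslack : slackB f
      = ∑ x : Fin (n + 1), ∑ y : Fin (n + 1), (if x ≠ y then QB x y f else 0)
        - ∑ x : Fin (n + 1), ∑ y : Fin (n + 1), (if x ≠ y then penB x y (centreB f) else 0) := by
    unfold slackB
    rw [← Finset.sum_sub_distrib]
    refine Finset.sum_congr rfl (fun x _ => ?_)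
    rw [← Finset.sum_sub_distrib]
    refine Finset.sum_congr rfl (fun y _ => ?_)
    by_cases hxy : x ≠ y
    · rw [if_pos hxy, if_pos hxy, if_pos hxy]
    · rw [if_neg hxy, if_neg hxy, if_neg hxy, sub_zero]
  rw [sum_ne_split a (fun x y => QB x y f), sum_ne_split a (fun x y => penB x y (centreB f)),
    sum_ne_star a (fun x y => QB x y f), sum_ne_star a (fun x y => penB x y (centreB f))]
    at hslack
  have hQ2 : ∑ b : Fin (n + 1), (if b ≠ a then QB a b f + QB b a f else 0)
      = 2 * ∑ b : Fin (n + 1), (if b ≠ a then QB a b f else 0) := by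
    rw [Finset.mul_sum]
    refine Finset.sum_congr rfl (fun b _ => ?_)
    by_cases hb : b ≠ a
    · rw [if_pos hb, if_pos hb, QB_comm2 b a f]
      ring
    · rw [if_neg hb, if_neg hb, mul_zero]
  have hP2 : ∑ b : Fin (n + 1),
        (if b ≠ a then penB a b (centreB f) + penB b a (centreB f) else 0)
      = 2 * ∑ b : Fin (n + 1), (if b ≠ a then penB a b (centreB f) else 0) := by
    rw [Finset.mul_sum]
    refine Finset.sum_congr rfl (fun b _ => ?_)
    by_cases hb : b ≠ a
    · rw [if_pos hb, if_pos hb, penB_comm2 b a hb (centreB f)]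
      ring
    · rw [if_neg hb, if_neg hb, mul_zero]
  rw [hQ2, hP2] at hslack
  have hsl : ∀ j ∈ Finset.range (min (s a) ρ + 1), slackB (sliceFun a j f)
      = sumNe (fun b c : Fin n => QB b c (sliceFun a j f))
        - sumNe (fun b c : Fin n => penB b c (centreB (sliceFun a j f))) := by
    intro j _
    rw [← sumNe_sub]
    rfl
  rw [Finset.sum_congr rfl hsl, Finset.sum_sub_distrib, sumNe_sum, sumNe_sum]
  have hQ : sumNe (fun b c : Fin n =>
      ∑ j ∈ Finset.range (min (s a) ρ + 1), QB b c (sliceFun a j f))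
      = sumNe (fun b c : Fin n => QB (a.succAbove b) (a.succAbove c) f) := by
    unfold sumNe
    refine Finset.sum_congr rfl (fun b _ => Finset.sum_congr rfl (fun c _ => ?_))
    beta_reduce
    rw [QB_slices a b c f]
  rw [sumNe_sub] at hS
  rw [hQ, hslack]
  linarith

/-- The same with the star inequality in the form for functions of zero sum applied to the
centred function. -/
theorem step_of_star_defect' {n : ℕ} {s : Fin (n + 1) → ℕ} {ρ : ℕ} (a : Fin (n + 1))
    (f : Box (n + 1) s ρ → ℝ) (t₁ t₂ : ℝ)
    (hstar : ∑ b : Fin (n + 1), (if b ≠ a then penB a b (centreB f) else 0)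
        + t₁ * ∑ z, avgRel (SliceRel a) (centreB f) z ^ 2
      ≤ ∑ b : Fin (n + 1), (if b ≠ a then QB a b (centreB f) else 0))
    (hS : sumNe (fun b c : Fin n => penB (a.succAbove b) (a.succAbove c) (centreB f)
        - ∑ j ∈ Finset.range (min (s a) ρ + 1), penB b c (centreB (sliceFun a j f)))
      ≤ 2 * t₂ * betweenB a f) :
    ∑ j ∈ Finset.range (min (s a) ρ + 1), slackB (sliceFun a j f)
        + 2 * (t₁ - t₂) * betweenB a f ≤ slackB f := by
  refine step_of_star_defect a f t₁ t₂ ?_ hS
  rw [betweenB_eq_centre]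
  simp only [QB_centreB] at hstar
  exact hstar

/-- Centring is not changed by subtracting a constant first. -/
theorem centreB_sub_const2 {n : ℕ} {s : Fin n → ℕ} {ρ : ℕ} (h : Box n s ρ → ℝ) (c : ℝ) :
    centreB (fun w => h w - c) = centreB h := by
  funext w
  unfold centreB
  have hne : (Fintype.card (Box n s ρ) : ℝ) ≠ 0 := by
    have : 0 < Fintype.card (Box n s ρ) := Fintype.card_pos_iff.2 ⟨w⟩
    exact_mod_cast this.ne'
  rw [Finset.sum_sub_distrib, Finset.sum_const, Finset.card_univ, nsmul_eq_mul]
  field_simp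
  ring

/-- The centred restriction to a slice of the centred function is the centred restriction of
the function. -/
theorem centreB_sliceFun_centreB {n : ℕ} {s : Fin (n + 1) → ℕ} {ρ : ℕ} (a : Fin (n + 1))
    (j : ℕ) (hj : j ≤ s a) (hρ : j ≤ ρ) (f : Box (n + 1) s ρ → ℝ) :
    centreB (sliceFun a j (centreB f)) = centreB (sliceFun a j f) := by
  have e : sliceFun a j (centreB f)
      = fun w => sliceFun a j f w - (∑ z, f z) / (Fintype.card (Box (n + 1) s ρ) : ℝ) := by
    funext w
    rw [sliceFun_eq a j hj hρ, sliceFun_eq a j hj hρ]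
    rfl
  rw [e, centreB_sub_const2]

/-- The kappa-step inequality at the column `a` from the star inequality with gain `t₁` and the
bound of the slice defect with constant `t₂`, both in the form for functions of zero sum. -/
theorem step_of_star_defect_zero {n : ℕ} {s : Fin (n + 1) → ℕ} {ρ : ℕ} (a : Fin (n + 1))
    (f : Box (n + 1) s ρ → ℝ) (t₁ t₂ : ℝ)
    (hstar : ∀ g : Box (n + 1) s ρ → ℝ, ∑ z, g z = 0 →
      ∑ b : Fin (n + 1), (if b ≠ a then penB a b g else 0)
          + t₁ * ∑ z, avgRel (SliceRel a) g z ^ 2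
        ≤ ∑ b : Fin (n + 1), (if b ≠ a then QB a b g else 0))
    (hS : ∀ g : Box (n + 1) s ρ → ℝ, ∑ z, g z = 0 →
      ∑ b : Fin n, ∑ c : Fin n, (if b ≠ c then
          penB (a.succAbove b) (a.succAbove c) g
            - ∑ j ∈ Finset.range (min (s a) ρ + 1), penB b c (centreB (sliceFun a j g))
          else 0)
        ≤ 2 * t₂ * betweenB a g) :
    ∑ j ∈ Finset.range (min (s a) ρ + 1), slackB (sliceFun a j f)
        + 2 * (t₁ - t₂) * betweenB a f ≤ slackB f := by
  refine step_of_star_defect' a f t₁ t₂ (hstar (centreB f) (sum_centreB f)) ?_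
  have h := hS (centreB f) (sum_centreB f)
  rw [betweenB_centreB] at h
  refine le_trans (le_of_eq ?_) h
  unfold sumNe
  refine Finset.sum_congr rfl (fun b _ => Finset.sum_congr rfl (fun c _ => ?_))
  by_cases hbc : b ≠ c
  · rw [if_pos hbc, if_pos hbc]
    have e : ∑ j ∈ Finset.range (min (s a) ρ + 1), penB b c (centreB (sliceFun a j (centreB f)))
        = ∑ j ∈ Finset.range (min (s a) ρ + 1), penB b c (centreB (sliceFun a j f)) := by
      refine Finset.sum_congr rfl (fun j hj => ?_)
      rw [Finset.mem_range] at hj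
      rw [centreB_sliceFun_centreB a j (by omega) (by omega) f]
    rw [e]
  · rw [if_neg hbc, if_neg hbc]

/-- The kappa-step inequality with the constant `1` at the column `a` from the star inequality
with gain `2 n / (n + 1)` (`n + 1` columns) and the bound of the slice defect with constant
`(n - 1) / (n + 1)`. -/
theorem step_one_of_star_defect {n : ℕ} {s : Fin (n + 1) → ℕ} {ρ : ℕ} (a : Fin (n + 1))
    (f : Box (n + 1) s ρ → ℝ)
    (hstar : ∀ g : Box (n + 1) s ρ → ℝ, ∑ z, g z = 0 →
      ∑ b : Fin (n + 1), (if b ≠ a then penB a b g else 0)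
          + (2 * (((n + 1 : ℕ) : ℝ) - 1) / ((n + 1 : ℕ) : ℝ))
            * ∑ z, avgRel (SliceRel a) g z ^ 2
        ≤ ∑ b : Fin (n + 1), (if b ≠ a then QB a b g else 0))
    (hS : ∀ g : Box (n + 1) s ρ → ℝ, ∑ z, g z = 0 →
      ∑ b : Fin n, ∑ c : Fin n, (if b ≠ c then
          penB (a.succAbove b) (a.succAbove c) g
            - ∑ j ∈ Finset.range (min (s a) ρ + 1), penB b c (centreB (sliceFun a j g))
          else 0)
        ≤ 2 * ((n : ℝ) - 1) / ((n : ℝ) + 1) * betweenB a g) :
    ∑ j ∈ Finset.range (min (s a) ρ + 1), slackB (sliceFun a j f) + 2 * 1 * betweenB a f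
      ≤ slackB f := by
  have hn : ((n : ℝ) + 1) ≠ 0 := by positivity
  have h := step_of_star_defect_zero a f (2 * (((n + 1 : ℕ) : ℝ) - 1) / ((n + 1 : ℕ) : ℝ))
    (((n : ℝ) - 1) / ((n : ℝ) + 1)) hstar (fun g hg => by
      have h2 := hS g hg
      have e : 2 * (((n : ℝ) - 1) / ((n : ℝ) + 1)) = 2 * ((n : ℝ) - 1) / ((n : ℝ) + 1) := by
        ring
      rw [e]
      exact h2)
  have e : 2 * (((n + 1 : ℕ) : ℝ) - 1) / ((n + 1 : ℕ) : ℝ) - ((n : ℝ) - 1) / ((n : ℝ) + 1)
      = 1 := by
    push_cast
    field_simp
    ring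
  rw [e] at h
  exact h

end Vale.Agent.H2.CT
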