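import Vale.Agent.H2.CT.DefectCore
import Vale.Agent.H2.CT.StepArms

/-!
P328: the bound of the slice defect of a class from counting facts on its slices.

For a class `Box (n + 1) s ρ`, a column `a` and a function `f` of zero sum: if the slices
`F_j = Box n (fun k => s (a.succAbove k)) (ρ - j)`, `j ≤ min (s a) ρ`, satisfy the five counting
facts `hπ`, `hrec`, `h1`, `h2`, `h3` below (they hold when all columns other than `a` are
uncapped), then the sum over the ordered pairs `b ≠ c` of columns other than `a` of the penalty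
of `f` minus the penalties of the centred restrictions of `f` to the slices is at most
`2 (n - 1) / (n + 1) * betweenB a f`.
-/

namespace Vale.Agent.H2.CT

open Finset Vale.Agent.H90 Vale.Agent.H88.CT Vale.Agent.H91.CT Vale.Agent.H14.CT

section bridge

variable {n : ℕ} {s : Fin (n + 1) → ℕ} {ρ : ℕ}

/-- The mean of `f` on the slice `{z a = j}`. -/
noncomputable def sliceMean (a : Fin (n + 1)) (f : Box (n + 1) s ρ → ℝ) (j : ℕ) : ℝ :=
  (∑ w, sliceFun a j f w) / (Fintype.card (Box n (fun k => s (a.succAbove k)) (ρ - j)) : ℝ)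

/-- The sum of the centred restriction of `f` to the slice `j` over the points of depth at
least `d` for the pair `p`. -/
noncomputable def dbX (a : Fin (n + 1)) (f : Box (n + 1) s ρ → ℝ) (p : Fin n × Fin n)
    (j d : ℕ) : ℝ :=
  if p.1 ≠ p.2 then
    ∑ w ∈ univ.filter (fun w : Box n (fun k => s (a.succAbove k)) (ρ - j) =>
      d ≤ depthB p.1 p.2 w), centreB (sliceFun a j f) w
  else 0

/-- The number of points of level `d` of the slice `j` for the pair `p`. -/
noncomputable def dbM (s : Fin (n + 1) → ℕ) (ρ : ℕ) (a : Fin (n + 1)) (p : Fin n × Fin n)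
    (j d : ℕ) : ℝ :=
  if p.1 ≠ p.2 then
    ((univ.filter (fun w : Box n (fun k => s (a.succAbove k)) (ρ - j) =>
      levelB p.1 p.2 w = d)).card : ℝ)
  else 0

/-- The number of points of depth at least `d` of the slice `j` for the pair `p`. -/
noncomputable def dbV (s : Fin (n + 1) → ℕ) (ρ : ℕ) (a : Fin (n + 1)) (p : Fin n × Fin n)
    (j d : ℕ) : ℝ :=
  if p.1 ≠ p.2 then
    ((univ.filter (fun w : Box n (fun k => s (a.succAbove k)) (ρ - j) =>
      d ≤ depthB p.1 p.2 w)).card : ℝ)
  else 0

theorem centreB_sliceMean (a : Fin (n + 1)) (f : Box (n + 1) s ρ → ℝ) (j : ℕ)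
    (w : Box n (fun k => s (a.succAbove k)) (ρ - j)) :
    centreB (sliceFun a j f) w = sliceFun a j f w - sliceMean a f j := rfl

/-- The slice average of `f` at a point of the slice `j` is the mean of the slice. -/
theorem avg_insB (a : Fin (n + 1)) (j : ℕ) (hj : j ≤ s a) (hρ : j ≤ ρ)
    (f : Box (n + 1) s ρ → ℝ) (w : Box n (fun k => s (a.succAbove k)) (ρ - j)) :
    avgRel (SliceRel a) f (insB a j hj hρ w) = sliceMean a f j := by
  have h := congrFun (sliceFun_sub_avg a j hj hρ f) w
  rw [sliceFun_eq a j hj hρ, centreB_sliceMean, sliceFun_eq a j hj hρ] at h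
  linarith

/-- The squared deviation of the slice averages in terms of the slice means. -/
theorem betweenB_slices (a : Fin (n + 1)) (f : Box (n + 1) s ρ → ℝ) (hf : ∑ z, f z = 0) :
    betweenB a f = ∑ j ∈ Finset.range (min (s a) ρ + 1),
      (Fintype.card (Box n (fun k => s (a.succAbove k)) (ρ - j)) : ℝ) * sliceMean a f j ^ 2 := by
  unfold betweenB
  rw [hf, zero_div]
  simp only [sub_zero]
  rw [sum_slices a (fun z => avgRel (SliceRel a) f z ^ 2)]
  refine Finset.sum_congr rfl (fun j hj => ?_)
  rw [Finset.mem_range] at hj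
  have hj1 : j ≤ s a := by omega
  have hj2 : j ≤ ρ := by omega
  have e : ∀ w ∈ (univ : Finset (Box n (fun k => s (a.succAbove k)) (ρ - j))),
      sliceFun a j (fun z => avgRel (SliceRel a) f z ^ 2) w = sliceMean a f j ^ 2 := by
    intro w _
    rw [sliceFun_eq a j hj1 hj2]
    show avgRel (SliceRel a) f (insB a j hj1 hj2 w) ^ 2 = _
    rw [avg_insB a j hj1 hj2 f w]
  rw [Finset.sum_congr rfl e, Finset.sum_const, Finset.card_univ, nsmul_eq_mul]

/-- A sum of the restriction of `f` over a set of points of a slice. -/
theorem sum_slice_centre (a : Fin (n + 1)) (f : Box (n + 1) s ρ → ℝ) (j : ℕ)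
    (A : Finset (Box n (fun k => s (a.succAbove k)) (ρ - j))) :
    ∑ w ∈ A, sliceFun a j f w
      = ∑ w ∈ A, centreB (sliceFun a j f) w + sliceMean a f j * (A.card : ℝ) := by
  have e : ∀ w ∈ A, sliceFun a j f w = centreB (sliceFun a j f) w + sliceMean a f j := by
    intro w _
    rw [centreB_sliceMean]
    ring
  rw [Finset.sum_congr rfl e, Finset.sum_add_distrib, Finset.sum_const, nsmul_eq_mul]
  ring

/-- The bound of the slice defect from the counting facts on the slices. -/
theorem slice_defect_of_counts (a : Fin (n + 1)) (f : Box (n + 1) s ρ → ℝ)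
    (hf : ∑ z, f z = 0)
    (hπ : ∀ j, j ≤ min (s a) ρ →
      0 < Fintype.card (Box n (fun k => s (a.succAbove k)) (ρ - j)))
    (hrec : ∀ j, j < min (s a) ρ →
      (((ρ - (j + 1) : ℕ) : ℝ) + (n : ℝ))
          * (Fintype.card (Box n (fun k => s (a.succAbove k)) (ρ - (j + 1))) : ℝ)
        = ((ρ - j : ℕ) : ℝ) * (Fintype.card (Box n (fun k => s (a.succAbove k)) (ρ - j)) : ℝ))
    (h1 : ∀ j, j ≤ min (s a) ρ →
      ∀ g : Box n (fun k => s (a.succAbove k)) (ρ - j) → ℝ, ∑ w, g w = 0 →
        ∑ b : Fin n, ∑ c : Fin n, (if b ≠ c then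
          ∑ d ∈ Finset.Icc 1 (min (s (a.succAbove b)) (s (a.succAbove c))),
            ∑ w ∈ univ.filter (fun w : Box n (fun k => s (a.succAbove k)) (ρ - j) =>
              d ≤ depthB b c w), g w
          else 0) = 0)
    (h2 : ∀ j, j ≤ min (s a) ρ →
      ∑ b : Fin n, ∑ c : Fin n, (if b ≠ c then
          ∑ d ∈ Finset.Icc 1 (min (s (a.succAbove b)) (s (a.succAbove c))),
            (d : ℝ) * (d + 1) * ((univ.filter
              (fun w : Box n (fun k => s (a.succAbove k)) (ρ - j) => levelB b c w = d)).card : ℝ)
          else 0)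
        = 2 * ((n : ℝ) - 1) * ((ρ - j : ℕ) : ℝ) * (((ρ - j : ℕ) : ℝ) + (n : ℝ))
          * (Fintype.card (Box n (fun k => s (a.succAbove k)) (ρ - j)) : ℝ) / ((n : ℝ) + 1))
    (h3 : ∀ b c : Fin n, b ≠ c →
      ∀ d ∈ Finset.Icc 1 (min (s (a.succAbove b)) (s (a.succAbove c))),
      ∀ j, j < min (s a) ρ →
        ((ρ - j : ℕ) : ℝ) * ((univ.filter
            (fun w : Box n (fun k => s (a.succAbove k)) (ρ - j) => d ≤ depthB b c w)).card : ℝ)
          - (((ρ - (j + 1) : ℕ) : ℝ) + (n : ℝ)) * ((univ.filter
            (fun w : Box n (fun k => s (a.succAbove k)) (ρ - (j + 1)) =>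
              d ≤ depthB b c w)).card : ℝ)
        = (d : ℝ) * (d + 1) * (((univ.filter
            (fun w : Box n (fun k => s (a.succAbove k)) (ρ - j) => levelB b c w = d)).card : ℝ)
          - ((univ.filter
            (fun w : Box n (fun k => s (a.succAbove k)) (ρ - (j + 1)) =>
              levelB b c w = d)).card : ℝ))) :
    ∑ b : Fin n, ∑ c : Fin n, (if b ≠ c then
        penB (a.succAbove b) (a.succAbove c) f
          - ∑ j ∈ Finset.range (min (s a) ρ + 1), penB b c (centreB (sliceFun a j f))
        else 0)
      ≤ 2 * ((n : ℝ) - 1) / ((n : ℝ) + 1) * betweenB a f := by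
  have hπr : ∀ j, j ≤ min (s a) ρ →
      (0 : ℝ) < (Fintype.card (Box n (fun k => s (a.succAbove k)) (ρ - j)) : ℝ) := by
    intro j hj
    exact_mod_cast hπ j hj
  have hcore := defect_core (P := Fin n × Fin n) (min (s a) ρ)
    (fun p => min (s (a.succAbove p.1)) (s (a.succAbove p.2))) (n : ℝ) (by positivity)
    (fun j => ((ρ - j : ℕ) : ℝ))
    (fun j => (Fintype.card (Box n (fun k => s (a.succAbove k)) (ρ - j)) : ℝ))
    (sliceMean a f) (dbX a f) (dbM s ρ a) (dbV s ρ a) hπr
    (fun j hj => by
      have : 0 < ρ - j := by omega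
      exact_mod_cast this)
    (fun p j d => by
      unfold dbM
      by_cases hp : p.1 ≠ p.2
      · rw [if_pos hp]
        exact Nat.cast_nonneg _
      · rw [if_neg hp])
    (fun p j d h0 => by
      unfold dbX
      unfold dbM at h0
      by_cases hp : p.1 ≠ p.2
      · rw [if_pos hp] at h0
        rw [if_pos hp]
        have h0' : (univ.filter (fun w : Box n (fun k => s (a.succAbove k)) (ρ - j) =>
            levelB p.1 p.2 w = d)).card = 0 := by
          exact_mod_cast h0
        have hemp : univ.filter (fun w : Box n (fun k => s (a.succAbove k)) (ρ - j) =>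
            d ≤ depthB p.1 p.2 w) = ∅ := by
          refine Finset.filter_false_of_mem (fun w _ hw => ?_)
          obtain ⟨w', hw'⟩ := exists_levelB p.1 p.2 hp w d hw
          have hmem : w' ∈ univ.filter
              (fun w : Box n (fun k => s (a.succAbove k)) (ρ - j) => levelB p.1 p.2 w = d) :=
            Finset.mem_filter.2 ⟨Finset.mem_univ _, hw'⟩
          rw [Finset.card_eq_zero.1 h0'] at hmem
          exact (Finset.notMem_empty _ hmem)
        rw [hemp, Finset.sum_empty]
      · rw [if_neg hp])
    (fun j hj => hrec j hj)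
    (by
      have e : ∀ j ∈ Finset.range (min (s a) ρ + 1),
          (Fintype.card (Box n (fun k => s (a.succAbove k)) (ρ - j)) : ℝ) * sliceMean a f j
            = ∑ w, sliceFun a j f w := by
        intro j hj
        rw [Finset.mem_range] at hj
        have hp := hπr j (by omega)
        unfold sliceMean
        field_simp
      rw [Finset.sum_congr rfl e, ← sum_slices a f]
      exact hf)
    (fun j hj => by
      rw [Fintype.sum_prod_type]
      have h := h1 j hj (centreB (sliceFun a j f)) (sum_centreB _)
      refine Eq.trans ?_ h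
      refine Finset.sum_congr rfl (fun b _ => Finset.sum_congr rfl (fun c _ => ?_))
      unfold dbX
      by_cases hbc : b ≠ c
      · rw [if_pos hbc]
        refine Finset.sum_congr rfl (fun d _ => ?_)
        rw [if_pos hbc]
      · rw [if_neg hbc]
        refine Finset.sum_eq_zero (fun d _ => ?_)
        rw [if_neg hbc])
    (fun j hj => by
      rw [Fintype.sum_prod_type]
      have h := h2 j hj
      refine Eq.trans ?_ h
      refine Finset.sum_congr rfl (fun b _ => Finset.sum_congr rfl (fun c _ => ?_))
      unfold dbM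
      by_cases hbc : b ≠ c
      · rw [if_pos hbc]
        refine Finset.sum_congr rfl (fun d _ => ?_)
        rw [if_pos hbc]
      · rw [if_neg hbc]
        refine Finset.sum_eq_zero (fun d _ => ?_)
        rw [if_neg hbc, mul_zero])
    (fun p d hd j hj => by
      unfold dbV dbM
      by_cases hp : p.1 ≠ p.2
      · rw [if_pos hp, if_pos hp, if_pos hp, if_pos hp]
        exact h3 p.1 p.2 hp d hd j hj
      · rw [if_neg hp, if_neg hp, if_neg hp, if_neg hp]
        ring)
  rw [betweenB_slices a f hf]
  refine le_trans (le_of_eq ?_) hcore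
  rw [Fintype.sum_prod_type]
  refine Finset.sum_congr rfl (fun b _ => Finset.sum_congr rfl (fun c _ => ?_))
  by_cases hbc : b ≠ c
  · rw [if_pos hbc]
    have hpart1 : penB (a.succAbove b) (a.succAbove c) f
        = ∑ d ∈ Finset.Icc 1 (min (s (a.succAbove b)) (s (a.succAbove c))),
          (∑ j ∈ Finset.range (min (s a) ρ + 1),
            (dbX a f (b, c) j d + sliceMean a f j * dbV s ρ a (b, c) j d)) ^ 2
            / ((d : ℝ) * (d + 1) * ∑ j ∈ Finset.range (min (s a) ρ + 1), dbM s ρ a (b, c) j d) := by
      unfold penB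
      refine Finset.sum_congr rfl (fun d _ => ?_)
      have hT : ∑ z ∈ univ.filter
            (fun z : Box (n + 1) s ρ => d ≤ depthB (a.succAbove b) (a.succAbove c) z), f z
          = ∑ j ∈ Finset.range (min (s a) ρ + 1),
              ∑ w ∈ univ.filter
                (fun w : Box n (fun k => s (a.succAbove k)) (ρ - j) => d ≤ depthB b c w),
                sliceFun a j f w :=
        sum_filter_slices a f _ (fun j w => d ≤ depthB b c w)
          (fun j hj hρ w => by rw [depthB_insB])
      have hM : ((univ.filter
            (fun z : Box (n + 1) s ρ => levelB (a.succAbove b) (a.succAbove c) z = d)).card : ℝ)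
          = ∑ j ∈ Finset.range (min (s a) ρ + 1),
              ((univ.filter
                (fun w : Box n (fun k => s (a.succAbove k)) (ρ - j) =>
                  levelB b c w = d)).card : ℝ) := by
        have h1' := sum_filter_slices a (fun _ => (1 : ℝ))
          (fun z : Box (n + 1) s ρ => levelB (a.succAbove b) (a.succAbove c) z = d)
          (fun j w => levelB b c w = d) (fun j hj hρ w => by rw [levelB_insB])
        rw [Finset.sum_const, nsmul_eq_mul, mul_one] at h1'
        rw [h1']
        refine Finset.sum_congr rfl (fun j hj => ?_)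
        rw [Finset.mem_range] at hj
        have hj1 : j ≤ s a := by omega
        have hj2 : j ≤ ρ := by omega
        have h2' : ∀ w ∈ univ.filter
            (fun w : Box n (fun k => s (a.succAbove k)) (ρ - j) => levelB b c w = d),
            sliceFun a j (fun _ : Box (n + 1) s ρ => (1 : ℝ)) w = 1 :=
          fun w _ => sliceFun_eq a j hj1 hj2 _ w
        rw [Finset.sum_congr rfl h2', Finset.sum_const, nsmul_eq_mul, mul_one]
      rw [hT, hM]
      have eX : ∀ j ∈ Finset.range (min (s a) ρ + 1),
          ∑ w ∈ univ.filter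
              (fun w : Box n (fun k => s (a.succAbove k)) (ρ - j) => d ≤ depthB b c w),
              sliceFun a j f w
            = dbX a f (b, c) j d + sliceMean a f j * dbV s ρ a (b, c) j d := by
        intro j _
        unfold dbX dbV
        rw [if_pos hbc, if_pos hbc, sum_slice_centre a f j]
      have eM : ∀ j ∈ Finset.range (min (s a) ρ + 1),
          ((univ.filter
            (fun w : Box n (fun k => s (a.succAbove k)) (ρ - j) => levelB b c w = d)).card : ℝ)
            = dbM s ρ a (b, c) j d := by
        intro j _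
        unfold dbM
        rw [if_pos hbc]
      rw [Finset.sum_congr rfl eX, Finset.sum_congr rfl eM]
    have hpart2 : ∑ j ∈ Finset.range (min (s a) ρ + 1), penB b c (centreB (sliceFun a j f))
        = ∑ j ∈ Finset.range (min (s a) ρ + 1),
          ∑ d ∈ Finset.Icc 1 (min (s (a.succAbove b)) (s (a.succAbove c))),
            dbX a f (b, c) j d ^ 2 / ((d : ℝ) * (d + 1) * dbM s ρ a (b, c) j d) := by
      refine Finset.sum_congr rfl (fun j _ => ?_)
      unfold penB
      refine Finset.sum_congr rfl (fun d _ => ?_)
      unfold dbX dbM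
      rw [if_pos hbc, if_pos hbc]
    rw [hpart1, hpart2]
  · rw [if_neg hbc]
    have hX0 : ∀ j d, dbX a f (b, c) j d = 0 := by
      intro j d
      unfold dbX
      rw [if_neg hbc]
    have hV0 : ∀ j d, dbV s ρ a (b, c) j d = 0 := by
      intro j d
      unfold dbV
      rw [if_neg hbc]
    simp only [hX0, hV0]
    simp

end bridge

end Vale.Agent.H2.CT
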