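import Mathlib

/-!
P328: the algebraic core of the bound of the slice defect (classes with uncapped arms).

Data: slices `j = 0, …, J` with sizes `π j`, weights `W j` and means `u j`; ordered pairs `p`
of arms; for a pair `p`, a slice `j` and `d ≥ 1`: `X p j d` (the sum of the centred slice
function over the points of depth at least `d`), `m p j d` (the number of points of level `d`)
and `V p j d` (the number of points of depth at least `d`).  From the counting identities
`hrec`, `h2`, `h3`, the vanishing `h1` and `∑ π u = 0`, the sum over the pairs of the penalty of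
the class minus the penalties of the slices is at most `2 (n - 1) / (n + 1) * ∑ π u²`.
-/

namespace Vale.Agent.H2.CT

open Finset

/-- Sedrakyan's inequality with vanishing weights allowed. -/
theorem dc_sedrakyan {ι : Type*} (S : Finset ι) (x m : ι → ℝ) (hm : ∀ j ∈ S, 0 ≤ m j)
    (hx : ∀ j ∈ S, m j = 0 → x j = 0) (κ : ℝ) (hκ : 0 < κ) :
    (∑ j ∈ S, x j) ^ 2 / (κ * ∑ j ∈ S, m j) ≤ ∑ j ∈ S, x j ^ 2 / (κ * m j) := by
  have hterm : ∀ j ∈ S, 0 ≤ x j ^ 2 / (κ * m j) := fun j hj =>
    div_nonneg (sq_nonneg _) (mul_nonneg hκ.le (hm j hj))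
  have hcs : (∑ j ∈ S, x j) ^ 2 ≤ (∑ j ∈ S, x j ^ 2 / (κ * m j)) * ∑ j ∈ S, κ * m j := by
    refine Finset.sum_sq_le_sum_mul_sum_of_sq_le_mul S hterm
      (fun j hj => mul_nonneg hκ.le (hm j hj)) (fun j hj => ?_)
    by_cases h0 : m j = 0
    · rw [hx j hj h0, h0]
      simp
    · have h1 : κ * m j ≠ 0 := mul_ne_zero hκ.ne' h0
      rw [div_mul_cancel₀ _ h1]
  rw [← Finset.mul_sum] at hcs
  by_cases hM : ∑ j ∈ S, m j = 0
  · rw [hM, mul_zero, div_zero]
    exact Finset.sum_nonneg hterm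
  · have hMpos : 0 < κ * ∑ j ∈ S, m j :=
      mul_pos hκ (lt_of_le_of_ne (Finset.sum_nonneg hm) (Ne.symm hM))
    rw [div_le_iff₀ hMpos]
    exact hcs

section core

variable (J : ℕ) (nn : ℝ) (W π u : ℕ → ℝ)

/-- Tail sums `T j = ∑_{j ≤ i ≤ J} π i * u i`. -/
noncomputable def dcT (j : ℕ) : ℝ :=
  ∑ i ∈ (range (J + 1)).filter (fun i => j ≤ i), π i * u i

/-- The potential: `dcPsi 0 = 0`, `dcPsi (j + 1) = - T (j + 1) / (W j * π j)` for `j < J` and
`0` for `j ≥ J`. -/
noncomputable def dcPsi : ℕ → ℝ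
  | 0 => 0
  | (j + 1) => if j < J then - dcT J π u (j + 1) / (W j * π j) else 0

/-- The increments of the potential. -/
noncomputable def dcPhi (j : ℕ) : ℝ := dcPsi J W π u (j + 1) - dcPsi J W π u j

theorem dcT_zero : dcT J π u 0 = ∑ j ∈ range (J + 1), π j * u j := by
  unfold dcT
  rw [Finset.filter_true_of_mem (fun i _ => Nat.zero_le i)]

theorem dcT_step (j : ℕ) (hj : j ≤ J) : dcT J π u j = π j * u j + dcT J π u (j + 1) := by
  unfold dcT
  have e : (range (J + 1)).filter (fun i => j ≤ i)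
      = insert j ((range (J + 1)).filter (fun i => j + 1 ≤ i)) := by
    ext i
    simp only [Finset.mem_filter, Finset.mem_range, Finset.mem_insert]
    constructor
    · intro h
      omega
    · intro h
      omega
  have hnot : j ∉ (range (J + 1)).filter (fun i => j + 1 ≤ i) := by
    simp
  rw [e, Finset.sum_insert hnot]

theorem dcT_top : dcT J π u (J + 1) = 0 := by
  unfold dcT
  rw [Finset.filter_false_of_mem (fun i hi => by
    rw [Finset.mem_range] at hi
    omega)]
  exact Finset.sum_empty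

theorem dcPsi_zero : dcPsi J W π u 0 = 0 := rfl

theorem dcPsi_succ (j : ℕ) :
    dcPsi J W π u (j + 1) = if j < J then - dcT J π u (j + 1) / (W j * π j) else 0 := rfl

theorem dcPsi_top : dcPsi J W π u (J + 1) = 0 := by
  rw [dcPsi_succ, if_neg (lt_irrefl J)]

/-- The means in terms of the potential. -/
theorem dc_u (hπ : ∀ j, j ≤ J → 0 < π j) (hW : ∀ j, j < J → 0 < W j)
    (hrec : ∀ j, j < J → (W (j + 1) + nn) * π (j + 1) = W j * π j)
    (hsum : ∑ j ∈ range (J + 1), π j * u j = 0) (j : ℕ) (hj : j ≤ J) :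
    u j = W j * dcPsi J W π u (j + 1) - (W j + nn) * dcPsi J W π u j := by
  have hT := dcT_step J π u j hj
  cases j with
  | zero =>
    rw [dcPsi_zero, mul_zero, sub_zero, dcPsi_succ]
    have h0 : dcT J π u 0 = 0 := by
      rw [dcT_zero]
      exact hsum
    rw [h0] at hT
    have hp := hπ 0 (Nat.zero_le J)
    by_cases hJ : 0 < J
    · rw [if_pos hJ]
      have hw := hW 0 hJ
      have e : W 0 * (-dcT J π u (0 + 1) / (W 0 * π 0)) = -dcT J π u (0 + 1) / π 0 := by
        field_simp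
      rw [e, eq_div_iff hp.ne']
      linarith
    · rw [if_neg hJ, mul_zero]
      have hJ0 : J = 0 := by omega
      have htop : dcT J π u (0 + 1) = 0 := by
        have h := dcT_top J π u
        rw [hJ0] at h
        rw [hJ0]
        exact h
      rw [htop, add_zero] at hT
      rcases mul_eq_zero.1 hT.symm with h | h
      · exact absurd h hp.ne'
      · exact h
  | succ i =>
    have hi : i < J := by omega
    have hpi := hπ i (by omega)
    have hpi1 := hπ (i + 1) hj
    have hwi := hW i hi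
    have hr := hrec i hi
    have hwn : 0 < W (i + 1) + nn := by
      have h : 0 < (W (i + 1) + nn) * π (i + 1) := by
        rw [hr]
        exact mul_pos hwi hpi
      exact pos_of_mul_pos_left h hpi1.le
    have e2 : (W (i + 1) + nn) * (-dcT J π u (i + 1) / (W i * π i))
        = -dcT J π u (i + 1) / π (i + 1) := by
      rw [← hr]
      field_simp
    rw [dcPsi_succ J W π u i, if_pos hi, dcPsi_succ J W π u (i + 1), e2]
    by_cases hJ : i + 1 < J
    · rw [if_pos hJ]
      have hw1 := hW (i + 1) hJ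
      have e1 : W (i + 1) * (-dcT J π u (i + 1 + 1) / (W (i + 1) * π (i + 1)))
          = -dcT J π u (i + 1 + 1) / π (i + 1) := by
        field_simp
      rw [e1, hT]
      field_simp
      ring
    · rw [if_neg hJ, mul_zero, zero_sub]
      have hJ' : i + 1 + 1 = J + 1 := by omega
      have htop : dcT J π u (i + 1 + 1) = 0 := by
        rw [hJ']
        exact dcT_top J π u
      rw [hT, htop]
      field_simp
      ring

/-- The isometry: `∑ π W (W + n) φ² = ∑ π u²`. -/
theorem dc_iso (hπ : ∀ j, j ≤ J → 0 < π j) (hW : ∀ j, j < J → 0 < W j)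
    (hrec : ∀ j, j < J → (W (j + 1) + nn) * π (j + 1) = W j * π j)
    (hsum : ∑ j ∈ range (J + 1), π j * u j = 0) :
    ∑ j ∈ range (J + 1), π j * W j * (W j + nn) * dcPhi J W π u j ^ 2
      = ∑ j ∈ range (J + 1), π j * u j ^ 2 := by
  let H : ℕ → ℝ := fun j => if j = 0 then 0 else π (j - 1) * W (j - 1) * dcPsi J W π u j ^ 2
  have hH0 : H 0 = 0 := if_pos rfl
  have hHs : ∀ j, H (j + 1) = π j * W j * dcPsi J W π u (j + 1) ^ 2 := by
    intro j
    show (if j + 1 = 0 then 0 else π (j + 1 - 1) * W (j + 1 - 1) * dcPsi J W π u (j + 1) ^ 2) = _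
    rw [if_neg (Nat.succ_ne_zero j), Nat.add_sub_cancel]
  have key : ∀ j ∈ range (J + 1), π j * W j * (W j + nn) * dcPhi J W π u j ^ 2 - π j * u j ^ 2
      = nn * (H (j + 1) - H j) := by
    intro j hj
    have hj' : j ≤ J := by
      rw [Finset.mem_range] at hj
      omega
    rw [dc_u J nn W π u hπ hW hrec hsum j hj', hHs j]
    unfold dcPhi
    cases j with
    | zero =>
      rw [hH0, dcPsi_zero]
      ring
    | succ i =>
      have hr := hrec i (by omega)
      rw [hHs i]
      linear_combination (-(nn * dcPsi J W π u (i + 1) ^ 2)) * hr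
  have hsub : ∑ j ∈ range (J + 1), π j * W j * (W j + nn) * dcPhi J W π u j ^ 2
      - ∑ j ∈ range (J + 1), π j * u j ^ 2 = 0 := by
    rw [← Finset.sum_sub_distrib, Finset.sum_congr rfl key, ← Finset.mul_sum,
      Finset.sum_range_sub, hHs J, hH0, dcPsi_top]
    ring
  linarith

/-- The compatibility condition for one pair and one `d`, by summation by parts. -/
theorem dc_Cd (hπ : ∀ j, j ≤ J → 0 < π j) (hW : ∀ j, j < J → 0 < W j)
    (hrec : ∀ j, j < J → (W (j + 1) + nn) * π (j + 1) = W j * π j)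
    (hsum : ∑ j ∈ range (J + 1), π j * u j = 0) (V m : ℕ → ℝ) (a : ℝ)
    (h3 : ∀ j, j < J → W j * V j - (W (j + 1) + nn) * V (j + 1) = a * (m j - m (j + 1))) :
    ∑ j ∈ range (J + 1), u j * V j = a * ∑ j ∈ range (J + 1), m j * dcPhi J W π u j := by
  have e1 : ∑ j ∈ range (J + 1), u j * V j
      = ∑ j ∈ range (J + 1), (W j * V j * dcPsi J W π u (j + 1)
        - (W j + nn) * V j * dcPsi J W π u j) := by
    refine Finset.sum_congr rfl (fun j hj => ?_)
    have hj' : j ≤ J := by
      rw [Finset.mem_range] at hj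
      omega
    have h := dc_u J nn W π u hπ hW hrec hsum j hj'
    calc u j * V j = (W j * dcPsi J W π u (j + 1) - (W j + nn) * dcPsi J W π u j) * V j := by
          rw [← h]
      _ = _ := by ring
  have e2 : ∑ j ∈ range (J + 1), m j * dcPhi J W π u j
      = ∑ j ∈ range (J + 1), (m j * dcPsi J W π u (j + 1) - m j * dcPsi J W π u j) := by
    refine Finset.sum_congr rfl (fun j _ => ?_)
    unfold dcPhi
    ring
  rw [e1, e2, Finset.sum_sub_distrib, Finset.sum_sub_distrib,
    Finset.sum_range_succ (fun j => W j * V j * dcPsi J W π u (j + 1)) J,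
    Finset.sum_range_succ' (fun j => (W j + nn) * V j * dcPsi J W π u j) J,
    Finset.sum_range_succ (fun j => m j * dcPsi J W π u (j + 1)) J,
    Finset.sum_range_succ' (fun j => m j * dcPsi J W π u j) J,
    dcPsi_top, dcPsi_zero]
  have e3 : ∑ j ∈ range J, W j * V j * dcPsi J W π u (j + 1)
      - ∑ j ∈ range J, (W (j + 1) + nn) * V (j + 1) * dcPsi J W π u (j + 1)
      = a * (∑ j ∈ range J, m j * dcPsi J W π u (j + 1)
        - ∑ j ∈ range J, m (j + 1) * dcPsi J W π u (j + 1)) := by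
    rw [← Finset.sum_sub_distrib, ← Finset.sum_sub_distrib, Finset.mul_sum]
    refine Finset.sum_congr rfl (fun j hj => ?_)
    have hj' : j < J := Finset.mem_range.1 hj
    have h := h3 j hj'
    linear_combination (dcPsi J W π u (j + 1)) * h
  linear_combination e3

end core

/-- One pair and one `d`: Sedrakyan's inequality with shifted variables. -/
theorem dc_pair {ι : Type*} (S : Finset ι) (X m V φ u : ι → ℝ) (a : ℝ) (ha : 0 < a)
    (hm : ∀ j, 0 ≤ m j) (hX : ∀ j, m j = 0 → X j = 0)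
    (hC : ∑ j ∈ S, u j * V j = a * ∑ j ∈ S, m j * φ j) :
    (∑ j ∈ S, (X j + u j * V j)) ^ 2 / (a * ∑ j ∈ S, m j)
      ≤ ∑ j ∈ S, X j ^ 2 / (a * m j) + 2 * ∑ j ∈ S, φ j * X j + a * ∑ j ∈ S, m j * φ j ^ 2 := by
  have hy : ∑ j ∈ S, (X j + u j * V j) = ∑ j ∈ S, (X j + a * m j * φ j) := by
    rw [Finset.sum_add_distrib, Finset.sum_add_distrib, hC, Finset.mul_sum]
    congr 1
    exact Finset.sum_congr rfl (fun j _ => by ring)
  rw [hy]
  have h := dc_sedrakyan S (fun j => X j + a * m j * φ j) m (fun j _ => hm j)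
    (fun j _ h0 => by
      rw [hX j h0, h0]
      ring) a ha
  refine le_trans h (le_of_eq ?_)
  rw [Finset.mul_sum, Finset.mul_sum, ← Finset.sum_add_distrib, ← Finset.sum_add_distrib]
  refine Finset.sum_congr rfl (fun j _ => ?_)
  by_cases h0 : m j = 0
  · rw [hX j h0, h0]
    simp
  · field_simp
    ring

/-- The algebraic core of the bound of the slice defect. -/
theorem defect_core {P : Type*} [Fintype P] (J : ℕ) (D : P → ℕ) (nn : ℝ) (hn : 0 < nn + 1)
    (W π u : ℕ → ℝ) (X m V : P → ℕ → ℕ → ℝ)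
    (hπ : ∀ j, j ≤ J → 0 < π j) (hW : ∀ j, j < J → 0 < W j)
    (hm : ∀ p j d, 0 ≤ m p j d) (hX : ∀ p j d, m p j d = 0 → X p j d = 0)
    (hrec : ∀ j, j < J → (W (j + 1) + nn) * π (j + 1) = W j * π j)
    (hsum : ∑ j ∈ range (J + 1), π j * u j = 0)
    (h1 : ∀ j, j ≤ J → ∑ p, ∑ d ∈ Icc 1 (D p), X p j d = 0)
    (h2 : ∀ j, j ≤ J → ∑ p, ∑ d ∈ Icc 1 (D p), (d : ℝ) * (d + 1) * m p j d
      = 2 * (nn - 1) * W j * (W j + nn) * π j / (nn + 1))
    (h3 : ∀ p, ∀ d ∈ Icc 1 (D p), ∀ j, j < J →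
      W j * V p j d - (W (j + 1) + nn) * V p (j + 1) d
        = (d : ℝ) * (d + 1) * (m p j d - m p (j + 1) d)) :
    ∑ p, (∑ d ∈ Icc 1 (D p),
          (∑ j ∈ range (J + 1), (X p j d + u j * V p j d)) ^ 2
            / ((d : ℝ) * (d + 1) * ∑ j ∈ range (J + 1), m p j d)
        - ∑ j ∈ range (J + 1), ∑ d ∈ Icc 1 (D p),
            X p j d ^ 2 / ((d : ℝ) * (d + 1) * m p j d))
      ≤ 2 * (nn - 1) / (nn + 1) * ∑ j ∈ range (J + 1), π j * u j ^ 2 := by
  have hterm : ∀ p, (∑ d ∈ Icc 1 (D p),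
          (∑ j ∈ range (J + 1), (X p j d + u j * V p j d)) ^ 2
            / ((d : ℝ) * (d + 1) * ∑ j ∈ range (J + 1), m p j d)
        - ∑ j ∈ range (J + 1), ∑ d ∈ Icc 1 (D p),
            X p j d ^ 2 / ((d : ℝ) * (d + 1) * m p j d))
      ≤ ∑ d ∈ Icc 1 (D p), (2 * ∑ j ∈ range (J + 1), dcPhi J W π u j * X p j d
          + (d : ℝ) * (d + 1) * ∑ j ∈ range (J + 1), m p j d * dcPhi J W π u j ^ 2) := by
    intro p
    rw [Finset.sum_comm (s := range (J + 1)) (t := Icc 1 (D p)), ← Finset.sum_sub_distrib]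
    refine Finset.sum_le_sum (fun d hd => ?_)
    have hd1 : 1 ≤ d := (Finset.mem_Icc.1 hd).1
    have hdr : (1 : ℝ) ≤ (d : ℝ) := by exact_mod_cast hd1
    have ha : (0 : ℝ) < (d : ℝ) * (d + 1) := by positivity
    have hC := dc_Cd J nn W π u hπ hW hrec hsum (fun j => V p j d) (fun j => m p j d)
      ((d : ℝ) * (d + 1)) (fun j hj => h3 p d hd j hj)
    have hp := dc_pair (range (J + 1)) (fun j => X p j d) (fun j => m p j d)
      (fun j => V p j d) (dcPhi J W π u) u ((d : ℝ) * (d + 1)) ha (fun j => hm p j d)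
      (fun j => hX p j d) hC
    linarith
  refine le_trans (Finset.sum_le_sum (fun p _ => hterm p)) ?_
  have e : ∑ p, ∑ d ∈ Icc 1 (D p), (2 * ∑ j ∈ range (J + 1), dcPhi J W π u j * X p j d
          + (d : ℝ) * (d + 1) * ∑ j ∈ range (J + 1), m p j d * dcPhi J W π u j ^ 2)
      = ∑ j ∈ range (J + 1), (2 * dcPhi J W π u j * ∑ p, ∑ d ∈ Icc 1 (D p), X p j d
          + dcPhi J W π u j ^ 2 * ∑ p, ∑ d ∈ Icc 1 (D p), (d : ℝ) * (d + 1) * m p j d) := by
    have er : ∀ j, 2 * dcPhi J W π u j * ∑ p, ∑ d ∈ Icc 1 (D p), X p j d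
          + dcPhi J W π u j ^ 2 * ∑ p, ∑ d ∈ Icc 1 (D p), (d : ℝ) * (d + 1) * m p j d
        = ∑ p, ∑ d ∈ Icc 1 (D p), (2 * (dcPhi J W π u j * X p j d)
          + (d : ℝ) * (d + 1) * (m p j d * dcPhi J W π u j ^ 2)) := by
      intro j
      rw [Finset.mul_sum, Finset.mul_sum, ← Finset.sum_add_distrib]
      refine Finset.sum_congr rfl (fun p _ => ?_)
      rw [Finset.mul_sum, Finset.mul_sum, ← Finset.sum_add_distrib]
      refine Finset.sum_congr rfl (fun d _ => ?_)
      ring
    rw [Finset.sum_congr rfl (fun j _ => er j), Finset.sum_comm]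
    refine Finset.sum_congr rfl (fun p _ => ?_)
    rw [Finset.sum_comm]
    refine Finset.sum_congr rfl (fun d _ => ?_)
    rw [Finset.mul_sum, Finset.mul_sum, ← Finset.sum_add_distrib]
  rw [e]
  have e2 : ∀ j ∈ range (J + 1), 2 * dcPhi J W π u j * ∑ p, ∑ d ∈ Icc 1 (D p), X p j d
          + dcPhi J W π u j ^ 2 * ∑ p, ∑ d ∈ Icc 1 (D p), (d : ℝ) * (d + 1) * m p j d
      = 2 * (nn - 1) / (nn + 1) * (π j * W j * (W j + nn) * dcPhi J W π u j ^ 2) := by
    intro j hj
    have hj' : j ≤ J := by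
      rw [Finset.mem_range] at hj
      omega
    rw [h1 j hj', h2 j hj']
    field_simp
    ring
  rw [Finset.sum_congr rfl e2, ← Finset.mul_sum, dc_iso J nn W π u hπ hW hrec hsum]

end Vale.Agent.H2.CT
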